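import Vale.Agent.P028.Full.Fractional.SelDefs

/-!
The exclusive selection for arbitrary families: bounds, exact means, and the two second moments.

Two families interact as with random classes; only two constrained items in one class are genuine.
Inside one family a free item never meets a constrained one, and the only cost is a pair of
constrained items in different classes.
-/

noncomputable section

namespace Vale.Agent.P028.Full.Fractional

open Finset
open Vale.Agent.P028.Full.Frac (avgE avgE_mono avgE_const_mul avgE_sum)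

variable {ι : Type*} {p : ℕ → ℕ} {st : ι → ℕ → St} {f : ι → ℝ}

theorem red_mem_keys {q : ℕ} (hq : 0 < q) (s : St) : s.red q ∈ St.keys q := by
  cases s <;> simp [St.keys, St.red, Nat.mod_lt _ hq]

theorem sum_keys (q : ℕ) (F : St → ℝ) :
    ∑ s ∈ St.keys q, F s =
      F .idle + F .free + (∑ c ∈ range q, F (.con c) + ∑ d ∈ range q, F (.del d)) := by
  have h1 : Disjoint ({St.idle, St.free} : Finset St)
      ((range q).image St.con ∪ (range q).image St.del) := by
    simp [Finset.disjoint_left]
  have h2 : Disjoint ((range q).image St.con) ((range q).image St.del) := by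
    simp [Finset.disjoint_left]
  rw [St.keys, sum_union h1, sum_union h2, sum_image (fun a _ b _ h => St.con.inj h),
    sum_image (fun a _ b _ h => St.del.inj h), sum_pair (by decide)]

theorem sum_fam (hp : ∀ m, 0 < p m) (S : Finset ι) (m : ℕ) (g : St → ι → ℝ) :
    ∑ i ∈ S, g ((st i m).red (p m)) i = ∑ s ∈ St.keys (p m), ∑ i ∈ fam p st S m s, g s i := by
  rw [← sum_fiberwise_of_maps_to (g := fun i => (st i m).red (p m))
    (fun i _ => red_mem_keys (hp m) _)]
  exact sum_congr rfl fun s _ => sum_congr rfl fun i hi => by rw [(mem_filter.1 hi).2]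

theorem delShare_mem {q : ℕ} (b : ℕ → ℝ) (F : ℝ) (hb : ∀ c, 0 ≤ b c)
    (hb0 : ∀ c, q ≤ c → b c = 0) (c : ℕ) :
    0 ≤ delShare (range q) b F c ∧ delShare (range q) b F c ≤ 1 := by
  by_cases hc : c < q
  · exact ⟨delShare_nonneg (fun x _ => hb x) (mem_range.2 hc),
      delShare_le_one (fun x _ => hb x) (mem_range.2 hc)⟩
  · have h := share_nonneg (s := range q) (f := F) (fun x _ => hb x)
    simp only [delShare, hb0 c (not_lt.1 hc), zero_div, zero_add, card_range]
    refine ⟨div_nonneg h (Nat.cast_nonneg _), ?_⟩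
    rcases Nat.eq_zero_or_pos q with h0 | h0
    · simp [h0]
    · refine (div_le_self h (by exact_mod_cast h0)).trans ?_
      exact sub_le_self _ (div_nonneg (sum_nonneg fun x _ => hb x)
        (scale_nonneg fun x _ => hb x))

theorem fam_con_eq_empty (hp : ∀ m, 0 < p m) (S : Finset ι) {m c : ℕ} (hc : p m ≤ c) :
    fam p st S m (.con c) = ∅ := by
  refine filter_eq_empty_iff.2 fun i _ h => ?_
  have := red_mem_keys (hp m) (st i m)
  rw [h] at this
  simp [St.keys] at this
  omega

theorem sel_nonneg (hp : ∀ m, 0 < p m) (hf : ∀ i, 0 ≤ f i) :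
    ∀ (m : ℕ) (S : Finset ι) (ω : ℕ → ℕ) (i : ι), 0 ≤ sel p st f m S ω i := by
  intro m
  induction m with
  | zero => exact fun _ _ i => hf i
  | succ m ih =>
    intro S ω i
    rw [sel]
    refine mul_nonneg (ih _ ω i) ?_
    rcases st i m with _ | _ | c | d
    · exact zero_le_one
    · exact sub_nonneg.2 (delShare_mem _ _ (fun c => sum_nonneg fun j _ => ih _ ω j)
        (fun c hc => by simp [fam_con_eq_empty hp S hc]) _).2
    all_goals simp only [St.hit]; split <;> norm_num

theorem sel_le (hp : ∀ m, 0 < p m) (hf : ∀ i, 0 ≤ f i) :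
    ∀ (m : ℕ) (S : Finset ι) (ω : ℕ → ℕ) (i : ι),
      sel p st f m S ω i ≤ f i * ∏ l ∈ range m, (st i l).hit (p l) (ω l) := by
  intro m
  induction m with
  | zero => intro S ω i; simp [sel]
  | succ m ih =>
    intro S ω i
    rw [sel, prod_range_succ, ← mul_assoc]
    have h0 := sel_nonneg hp hf m (fam p st S m ((st i m).red (p m))) ω i (st := st)
    have h1 := ih (fam p st S m ((st i m).red (p m))) ω i
    rcases hs : st i m with _ | _ | c | d <;> rw [hs] at h0 h1
    · exact mul_le_mul_of_nonneg_right h1 zero_le_one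
    · refine mul_le_mul h1 ?_ ?_ (h0.trans h1) <;>
        have h := delShare_mem (q := p m)
          (fun c => ∑ j ∈ fam p st S m (.con c), sel p st f m (fam p st S m (.con c)) ω j)
          (∑ j ∈ fam p st S m .free, sel p st f m (fam p st S m .free) ω j)
          (fun c => sum_nonneg fun j _ => sel_nonneg hp hf m _ ω j)
          (fun c hc => by simp [fam_con_eq_empty hp S hc]) (ω m)
      · exact sub_le_self _ h.1
      · exact sub_nonneg.2 h.2
    all_goals refine mul_le_mul_of_nonneg_right h1 ?_; simp only [St.hit]; split <;> norm_num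

theorem sel_congr {m : ℕ} {S : Finset ι} {ω ω' : ℕ → ℕ} (h : ∀ l < m, ω l = ω' l) (i : ι) :
    sel p st f m S ω i = sel p st f m S ω' i := by
  induction m generalizing S i with
  | zero => rfl
  | succ m ih =>
    have h' : ∀ T j, sel p st f m T ω j = sel p st f m T ω' j :=
      fun T j => ih (fun l hl => h l (by omega)) j
    simp only [sel, h', h m (Nat.lt_succ_self m)]

theorem tot_update {m : ℕ} {S : Finset ι} {ω : ℕ → ℕ} {c : ℕ} :
    tot p st f m S (Function.update ω m c) = tot p st f m S ω :=
  sum_congr rfl fun i _ => sel_congr (fun l hl => Function.update_of_ne (by omega) _ _) i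

theorem sel_update {m : ℕ} {S : Finset ι} {ω : ℕ → ℕ} {c : ℕ} (i : ι) :
    sel p st f m S (Function.update ω m c) i = sel p st f m S ω i :=
  sel_congr (fun l hl => Function.update_of_ne (by omega) _ _) i

/-- Each item keeps its exact mean. -/
theorem avgE_sel (hp : ∀ m, 0 < p m) :
    ∀ (m : ℕ) (S : Finset ι) (i : ι) (ω : ℕ → ℕ),
      avgE p m (fun ω => sel p st f m S ω i) ω =
        f i * ∏ l ∈ range m, (st i l).mean (p l) := by
  intro m
  induction m with
  | zero => intro S i ω; simp [avgE, sel]
  | succ m ih =>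
    intro S i ω
    have hq : (p m : ℝ) ≠ 0 := by exact_mod_cast (hp m).ne'
    rw [avgE, prod_range_succ, ← mul_assoc, ← ih (fam p st S m ((st i m).red (p m))) i ω,
      mul_comm (avgE p m _ ω), ← avgE_const_mul]
    congr 1
    funext ω'
    simp only [sel, Function.update_self, sel_update]
    rw [← mul_sum, mul_comm ((st i m).mean (p m)), mul_div_assoc]
    congr 1
    rw [div_eq_iff hq]
    rcases hs : st i m with _ | _ | c | d
    · simp [St.mean, St.hit]
    · simp only [St.mean, sum_sub_distrib, sum_const, card_range, nsmul_eq_mul,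
        sum_delShare (nonempty_range_iff.2 (hp m).ne')]
      field_simp
    · simp [St.mean, St.hit, Nat.mod_lt _ (hp m), hq]
    · simp only [St.mean, St.hit]
      rw [sum_ite, sum_const_zero, zero_add, sum_const, filter_ne (range (p m)) (d % p m),
        card_erase_of_mem (mem_range.2 (Nat.mod_lt _ (hp m))), card_range, nsmul_eq_mul,
        Nat.cast_sub (hp m)]
      field_simp
      push_cast
      ring

theorem tot_nonneg (hp : ∀ m, 0 < p m) (hf : ∀ i, 0 ≤ f i) (m : ℕ) (S : Finset ι) (ω : ℕ → ℕ) :
    0 ≤ tot p st f m S ω :=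
  sum_nonneg fun i _ => sel_nonneg hp hf m S ω i

/-- The total at one more coordinate. -/
theorem tot_succ (hp : ∀ m, 0 < p m) {m : ℕ} (S : Finset ι) (ω : ℕ → ℕ) {c : ℕ} (hc : c < p m) :
    tot p st f (m + 1) S (Function.update ω m c) =
      tot p st f m (fam p st S m .idle) ω +
        total (range (p m)) (fun c => tot p st f m (fam p st S m (.con c)) ω)
          (tot p st f m (fam p st S m .free) ω) c +
        (∑ d ∈ range (p m), tot p st f m (fam p st S m (.del d)) ω -
          tot p st f m (fam p st S m (.del c)) ω) := by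
  set b : ℕ → ℝ := fun c => tot p st f m (fam p st S m (.con c)) ω with hb
  set F := tot p st f m (fam p st S m .free) ω with hF
  set w : St → ℝ := fun s => match s with
    | .free => 1 - delShare (range (p m)) b F c
    | s => s.hit (p m) c with hw
  have e : ∀ i ∈ S, sel p st f (m + 1) S (Function.update ω m c) i =
      sel p st f m (fam p st S m ((st i m).red (p m))) ω i * w ((st i m).red (p m)) := by
    intro i _
    simp only [sel, Function.update_self, sel_update]
    congr 1
    rcases hs : st i m with _ | _ | a | a <;> simp [hw, St.red, St.hit, hb, hF, tot]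
  rw [tot, sum_congr rfl e,
    sum_fam hp S m (fun s i => sel p st f m (fam p st S m s) ω i * w s), sum_keys]
  simp only [← sum_mul]
  change tot p st f m (fam p st S m .idle) ω * w .idle + F * w .free +
      (∑ a ∈ range (p m), b a * w (.con a) +
        ∑ a ∈ range (p m), tot p st f m (fam p st S m (.del a)) ω * w (.del a)) = _
  have e1 : ∑ a ∈ range (p m), b a * w (.con a) = b c := by
    rw [sum_eq_single c (fun a ha hac => by
        simp [hw, St.hit, Nat.mod_eq_of_lt (mem_range.1 ha), hac])
      (fun h => absurd (mem_range.2 hc) h)]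
    simp [hw, St.hit, Nat.mod_eq_of_lt hc]
  have e2 : ∑ a ∈ range (p m), tot p st f m (fam p st S m (.del a)) ω * w (.del a) =
      ∑ a ∈ range (p m), tot p st f m (fam p st S m (.del a)) ω -
        tot p st f m (fam p st S m (.del c)) ω := by
    rw [← sum_erase_eq_sub (mem_range.2 hc)]
    refine (sum_subset (erase_subset _ _) fun a ha hna => ?_).symm.trans (sum_congr rfl fun a ha => ?_)
    · have : a = c := by by_contra h; exact hna (mem_erase.2 ⟨h, ha⟩)
      subst this
      simp [hw, St.hit, Nat.mod_eq_of_lt hc]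
    · obtain ⟨hac, ha'⟩ := mem_erase.1 ha
      simp [hw, St.hit, Nat.mod_eq_of_lt (mem_range.1 ha'), hac]
  rw [e1, e2]
  simp only [hw, St.hit, total]
  ring

theorem mean_total (q : ℕ) (hq : 0 < q) (b : ℕ → ℝ) (F : ℝ) :
    ∑ c ∈ range q, total (range q) b F c =
      (∑ c ∈ range q, b c) + F * (q - 1) := by
  rw [sum_total (nonempty_range_iff.2 hq.ne'), avgTotal, card_range]
  have : (q : ℝ) ≠ 0 := by exact_mod_cast hq.ne'
  field_simp

theorem total_mul_del_le {q : ℕ} (hq : 0 < q) {b D : ℕ → ℝ} {F : ℝ} (hb : ∀ c, 0 ≤ b c)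
    (hF : 0 ≤ F) (hD : ∀ c, 0 ≤ D c) :
    ∑ c ∈ range q, total (range q) b F c * (∑ d ∈ range q, D d - D c) ≤
      (∑ d ∈ range q, D d) * (∑ c ∈ range q, b c + F * (q - 1) - F * (1 - 1 / (q : ℝ))) := by
  have hq' : (1 : ℝ) ≤ q := by exact_mod_cast hq
  have hlow : ∀ c ∈ range q, F * (1 - 1 / (q : ℝ)) ≤ total (range q) b F c := by
    intro c hc
    have hb' : ∀ x ∈ range q, 0 ≤ b x := fun x _ => hb x
    have h1 : F * (b c / scale (range q) b F) ≤ b c := by
      rw [mul_comm, div_mul_eq_mul_div]
      exact div_le_of_le_mul₀ (scale_nonneg hb') (hb c)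
        (mul_le_mul_of_nonneg_left (le_max_right _ _) (hb c))
    have h2 : (1 - (∑ c ∈ range q, b c) / scale (range q) b F) / (q : ℝ) ≤ 1 / q :=
      div_le_div_of_nonneg_right (sub_le_self _ (div_nonneg (sum_nonneg hb') (scale_nonneg hb')))
        (by linarith)
    have h3 := mul_le_mul_of_nonneg_left h2 hF
    simp only [total, delShare, card_range]
    linarith
  have h : ∑ c ∈ range q, total (range q) b F c * (∑ d ∈ range q, D d - D c) ≤
      ∑ c ∈ range q, (total (range q) b F c * (∑ d ∈ range q, D d) - F * (1 - 1 / (q : ℝ)) * D c) :=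
    sum_le_sum fun c hc => by
      rw [mul_sub]
      exact sub_le_sub_left (mul_le_mul_of_nonneg_right (hlow c hc) (hD c)) _
  refine h.trans (le_of_eq ?_)
  rw [sum_sub_distrib, ← sum_mul, ← mul_sum, mean_total q hq]
  ring

theorem del_mul_del {q : ℕ} (D D' : ℕ → ℝ) :
    ∑ c ∈ range q, (∑ d ∈ range q, D d - D c) * (∑ d ∈ range q, D' d - D' c) =
      (q - 2) * ((∑ d ∈ range q, D d) * ∑ d ∈ range q, D' d) + ∑ c ∈ range q, D c * D' c := by
  simp only [sub_mul, mul_sub, sum_sub_distrib, sum_const, card_range, nsmul_eq_mul, ← mul_sum,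
    ← sum_mul]
  ring

/-- One coordinate of two families. -/
theorem sum_step_mul_le {q : ℕ} (hq : 0 < q) (X X' : St → ℝ) (hX : ∀ s, 0 ≤ X s)
    (hX' : ∀ s, 0 ≤ X' s) :
    ∑ c ∈ range q,
      (X .idle + total (range q) (fun c => X (.con c)) (X .free) c +
          (∑ d ∈ range q, X (.del d) - X (.del c))) *
        (X' .idle + total (range q) (fun c => X' (.con c)) (X' .free) c +
          (∑ d ∈ range q, X' (.del d) - X' (.del c))) ≤
      q * ∑ s ∈ St.keys q, ∑ t ∈ St.keys q, rfac q s t * (X s * X' t) := by
  have hq' : (q : ℝ) ≠ 0 := by exact_mod_cast hq.ne'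
  have hne : (range q).Nonempty := nonempty_range_iff.2 hq.ne'
  have h1 := sum_total_mul_total_le (f := X .free) (f' := X' .free) hne
    (fun c _ => hX (.con c)) (fun c _ => hX' (.con c)) (hX .free) (hX' .free)
  have h2 := total_mul_del_le (b := fun c => X (.con c)) hq (fun c => hX (.con c))
    (hX .free) (fun c => hX' (.del c))
  have h3 := total_mul_del_le (b := fun c => X' (.con c)) hq (fun c => hX' (.con c))
    (hX' .free) (fun c => hX (.del c))
  have h4 := del_mul_del (q := q) (fun c => X (.del c)) fun c => X' (.del c)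
  simp only [avgTotal, card_range] at h1
  have e : ∑ c ∈ range q,
      (X .idle + total (range q) (fun c => X (.con c)) (X .free) c +
          (∑ d ∈ range q, X (.del d) - X (.del c))) *
        (X' .idle + total (range q) (fun c => X' (.con c)) (X' .free) c +
          (∑ d ∈ range q, X' (.del d) - X' (.del c))) =
      q * (X .idle * X' .idle) +
      X .idle * (∑ c ∈ range q, X' (.con c) + X' .free * (q - 1) +
        (q - 1) * ∑ d ∈ range q, X' (.del d)) +
      X' .idle * (∑ c ∈ range q, X (.con c) + X .free * (q - 1) +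
        (q - 1) * ∑ d ∈ range q, X (.del d)) +
      ∑ c ∈ range q, total (range q) (fun c => X (.con c)) (X .free) c *
        total (range q) (fun c => X' (.con c)) (X' .free) c +
      ∑ c ∈ range q, total (range q) (fun c => X (.con c)) (X .free) c *
        (∑ d ∈ range q, X' (.del d) - X' (.del c)) +
      ∑ c ∈ range q, total (range q) (fun c => X' (.con c)) (X' .free) c *
        (∑ d ∈ range q, X (.del d) - X (.del c)) +
      ∑ c ∈ range q, (∑ d ∈ range q, X (.del d) - X (.del c)) *
        (∑ d ∈ range q, X' (.del d) - X' (.del c)) := by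
    have hc : ∀ c : ℕ, ∀ a x y a' x' y' : ℝ, (a + x + y) * (a' + x' + y') =
        a * a' + a * x' + a * y' + a' * x + a' * y + x * x' + x * y' + x' * y + y * y' :=
      fun _ _ _ _ _ _ _ => by ring
    simp only [hc 0, sum_add_distrib, ← mul_sum, mean_total q hq, sum_sub_distrib, sum_const,
      card_range, nsmul_eq_mul]
    ring
  rw [e]
  refine (add_le_add (add_le_add (add_le_add (add_le_add le_rfl h1) h2) h3) h4.le).trans
    (le_of_eq ?_)
  simp only [sum_keys, rfac, St.mean, add_mul, mul_add, sum_add_distrib, ite_mul, zero_mul,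
    sum_ite_eq, mem_range, ← mul_sum, ← sum_mul]
  rw [sum_congr rfl (fun c hc => if_pos (mem_range.1 hc)),
    sum_congr rfl (fun c hc => if_pos (mem_range.1 hc))]
  simp only [← mul_sum]
  field_simp
  ring

/-- One coordinate of one family. -/
theorem sum_step_sq_le {q : ℕ} (hq : 0 < q) (X : St → ℝ) (hX : ∀ s, 0 ≤ X s) :
    ∑ c ∈ range q,
      (X .idle + total (range q) (fun c => X (.con c)) (X .free) c +
          (∑ d ∈ range q, X (.del d) - X (.del c))) ^ 2 ≤
      q * ∑ s ∈ St.keys q, ∑ t ∈ St.keys q,
        (if s = t then sfac q s else xfac q s t) * (X s * X t) := by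
  have hq' : (q : ℝ) ≠ 0 := by exact_mod_cast hq.ne'
  have hne : (range q).Nonempty := nonempty_range_iff.2 hq.ne'
  have h1 := sum_total_sq_le (f := X .free) hne (fun c _ => hX (.con c)) (hX .free)
  have h2 := total_mul_del_le (b := fun c => X (.con c)) hq (fun c => hX (.con c))
    (hX .free) (fun c => hX (.del c))
  have h4 := del_mul_del (q := q) (fun c => X (.del c)) fun c => X (.del c)
  have hv : X .free / scale (range q) (fun c => X (.con c)) (X .free) ≤ 1 :=
    div_le_one_of_le₀ (le_max_right _ _) (scale_nonneg fun c _ => hX (.con c))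
  have hK : 0 ≤ ∑ c ∈ range q, ∑ d ∈ (range q).erase c, X (.con c) * X (.con d) :=
    sum_nonneg fun c _ => sum_nonneg fun d _ => mul_nonneg (hX _) (hX _)
  have h1' := h1.trans (add_le_add le_rfl (mul_le_mul_of_nonneg_right
    (mul_le_mul_of_nonneg_left hv zero_le_two) hK))
  simp only [card_range, mul_one] at h1'
  have e : ∑ c ∈ range q,
      (X .idle + total (range q) (fun c => X (.con c)) (X .free) c +
          (∑ d ∈ range q, X (.del d) - X (.del c))) ^ 2 =
      q * X .idle ^ 2 +
      2 * X .idle * (∑ c ∈ range q, X (.con c) + X .free * (q - 1) +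
        (q - 1) * ∑ d ∈ range q, X (.del d)) +
      ∑ c ∈ range q, total (range q) (fun c => X (.con c)) (X .free) c ^ 2 +
      2 * (∑ c ∈ range q, total (range q) (fun c => X (.con c)) (X .free) c *
        (∑ d ∈ range q, X (.del d) - X (.del c))) +
      ∑ c ∈ range q, (∑ d ∈ range q, X (.del d) - X (.del c)) *
        (∑ d ∈ range q, X (.del d) - X (.del c)) := by
    have hc : ∀ a x y : ℝ,
        (a + x + y) ^ 2 = a ^ 2 + 2 * a * x + 2 * a * y + x ^ 2 + 2 * (x * y) + y * y :=
      fun _ _ _ => by ring
    simp only [hc, sum_add_distrib, ← mul_sum, mean_total q hq, sum_sub_distrib, sum_const,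
      card_range, nsmul_eq_mul]
    ring
  rw [e]
  refine (add_le_add (add_le_add (add_le_add le_rfl h1') (mul_le_mul_of_nonneg_left h2
    zero_le_two)) h4.le).trans (le_of_eq ?_)
  have herase : ∀ (g : ℕ → ℝ), ∀ c ∈ range q,
      ∑ d ∈ (range q).erase c, g d = ∑ d ∈ range q, g d - g c :=
    fun g c hc => sum_erase_eq_sub hc
  rw [sum_congr rfl fun c hc => herase (fun d => X (.con c) * X (.con d)) c hc]
  simp only [sum_keys, sfac, xfac, rfac, St.mean, reduceCtorEq, if_false, if_true, St.con.injEq,
    St.del.injEq, ite_mul, zero_mul]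
  have hite : ∀ (a b : ℝ) (g : ℕ → ℝ), ∀ c ∈ range q,
      ∑ d ∈ range q, (if c = d then a * g d else b * g d) = b * ∑ d ∈ range q, g d + (a - b) * g c := by
    intro a b g c hc
    rw [sum_congr rfl fun d _ => show (if c = d then a * g d else b * g d) =
      b * g d + (if c = d then (a - b) * g d else 0) by split <;> ring, sum_add_distrib, ← mul_sum,
      sum_ite_eq, if_pos hc]
  simp only [sum_add_distrib, ← mul_sum, ← sum_mul, sum_const_zero, sum_sub_distrib]
  rw [sum_congr rfl fun c hc => hite (1 / (q : ℝ)) (2 / q) (fun d => X (.con c) * X (.con d)) c hc,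
    sum_congr rfl fun c hc => hite (1 - 1 / (q : ℝ)) (1 - 2 / q)
      (fun d => X (.del c) * X (.del d)) c hc]
  simp only [sum_add_distrib, ← mul_sum, ← sum_mul]
  field_simp
  ring

theorem rfac_nonneg {q : ℕ} {s t : St} (hs : s ∈ St.keys q) (ht : t ∈ St.keys q) :
    0 ≤ rfac q s t := by
  rcases Nat.lt_or_ge q 2 with h | h
  · interval_cases q <;> rcases s with _ | _ | a | a <;> rcases t with _ | _ | a' | a' <;>
      simp [St.keys] at hs ht <;> simp [rfac, St.mean, hs, ht] <;> norm_num
  · have h' : (2 : ℝ) ≤ q := by exact_mod_cast h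
    have h1 : 0 ≤ 1 - 1 / (q : ℝ) := by rw [sub_nonneg, div_le_one (by linarith)]; linarith
    have h2 : 0 ≤ 1 - 2 / (q : ℝ) := by rw [sub_nonneg, div_le_one (by linarith)]; linarith
    rcases s with _ | _ | a | a <;> rcases t with _ | _ | a' | a' <;>
      simp only [rfac, St.mean] <;> (try split) <;> positivity

theorem xfac_nonneg {q : ℕ} {s t : St} (hs : s ∈ St.keys q) (ht : t ∈ St.keys q) (hne : s ≠ t) :
    0 ≤ xfac q s t := by
  have h := rfac_nonneg hs ht
  rcases s with _ | _ | a | a <;> rcases t with _ | _ | a' | a' <;>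
    first
      | exact h
      | exact le_rfl
      | (simp only [xfac]; positivity)
      | (simp only [rfac, if_neg (fun e : a = a' => hne (by rw [e]))] at h
         simpa [xfac] using h)

theorem sfac_nonneg {q : ℕ} (hq : 0 < q) (s : St) : 0 ≤ sfac q s := by
  have h' : (1 : ℝ) ≤ q := by exact_mod_cast hq
  have h1 : 0 ≤ 1 - 1 / (q : ℝ) := by rw [sub_nonneg, div_le_one (by linarith)]; linarith
  rcases s with _ | _ | a | a <;> simp only [sfac] <;> positivity

/-- The regrouping of a pair sum by the states at one coordinate. -/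
theorem sum_pairs (hp : ∀ m, 0 < p m) (S T : Finset ι) (m : ℕ) (g : St → St → ι → ι → ℝ) :
    ∑ i ∈ S, ∑ k ∈ T, g ((st i m).red (p m)) ((st k m).red (p m)) i k =
      ∑ s ∈ St.keys (p m), ∑ t ∈ St.keys (p m),
        ∑ i ∈ fam p st S m s, ∑ k ∈ fam p st T m t, g s t i k := by
  rw [sum_congr rfl fun i _ => sum_fam hp T m (fun t k => g ((st i m).red (p m)) t i k),
    sum_fam hp S m (fun s i => ∑ t ∈ St.keys (p m), ∑ k ∈ fam p st T m t, g s t i k)]
  exact sum_congr rfl fun s _ => sum_comm

/-- **Two families**: the kernel of random classes. -/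
theorem avgE_tot_mul_le (hp : ∀ m, 0 < p m) (hf : ∀ i, 0 ≤ f i) :
    ∀ (m : ℕ) (S T : Finset ι) (ω : ℕ → ℕ),
      avgE p m (fun ω => tot p st f m S ω * tot p st f m T ω) ω ≤
        ∑ i ∈ S, ∑ k ∈ T, f i * f k * kernR p m (st i) (st k) := by
  intro m
  induction m with
  | zero =>
    intro S T ω
    simp [avgE, tot, sel, kernR, sum_mul_sum]
  | succ m ih =>
    intro S T ω
    have hq : (0 : ℝ) < p m := by exact_mod_cast hp m
    have hstep : ∀ ω, (∑ c ∈ range (p m), tot p st f (m + 1) S (Function.update ω m c) *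
        tot p st f (m + 1) T (Function.update ω m c)) / (p m : ℝ) ≤
        ∑ s ∈ St.keys (p m), ∑ t ∈ St.keys (p m), rfac (p m) s t *
          (tot p st f m (fam p st S m s) ω * tot p st f m (fam p st T m t) ω) := fun ω => by
      rw [div_le_iff₀' hq, sum_congr rfl fun c hc => by
        rw [tot_succ hp S ω (mem_range.1 hc), tot_succ hp T ω (mem_range.1 hc)]]
      exact sum_step_mul_le (hp m) (fun s => tot p st f m (fam p st S m s) ω)
        (fun t => tot p st f m (fam p st T m t) ω) (fun s => tot_nonneg hp hf m _ ω)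
        (fun t => tot_nonneg hp hf m _ ω)
    rw [avgE]
    refine (avgE_mono hstep ω).trans ?_
    simp only [avgE_sum, avgE_const_mul, kernR]
    rw [sum_pairs hp S T m
      (fun s t i k => f i * f k * (rfac (p m) s t * kernR p m (st i) (st k)))]
    refine sum_le_sum fun s hs => sum_le_sum fun t ht => ?_
    refine (mul_le_mul_of_nonneg_left (ih _ _ ω) (rfac_nonneg hs ht)).trans (le_of_eq ?_)
    simp only [mul_sum]
    exact sum_congr rfl fun i _ => sum_congr rfl fun k _ => by ring

/-- **One family**: constrained items kill the free ones, at the cost of two classes only. -/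
theorem avgE_tot_sq_le (hp : ∀ m, 0 < p m) (hf : ∀ i, 0 ≤ f i) :
    ∀ (m : ℕ) (S : Finset ι) (ω : ℕ → ℕ),
      avgE p m (fun ω => tot p st f m S ω ^ 2) ω ≤
        ∑ i ∈ S, ∑ k ∈ S, f i * f k * kernS p m (st i) (st k) := by
  intro m
  induction m with
  | zero =>
    intro S ω
    simp [avgE, tot, sel, kernS, sum_mul_sum, sq]
  | succ m ih =>
    intro S ω
    have hq : (0 : ℝ) < p m := by exact_mod_cast hp m
    have hstep : ∀ ω, (∑ c ∈ range (p m),
        tot p st f (m + 1) S (Function.update ω m c) ^ 2) / (p m : ℝ) ≤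
        ∑ s ∈ St.keys (p m), ∑ t ∈ St.keys (p m),
          (if s = t then sfac (p m) s else xfac (p m) s t) *
            (tot p st f m (fam p st S m s) ω * tot p st f m (fam p st S m t) ω) := fun ω => by
      rw [div_le_iff₀' hq, sum_congr rfl fun c hc => by rw [tot_succ hp S ω (mem_range.1 hc)]]
      exact sum_step_sq_le (hp m) (fun s => tot p st f m (fam p st S m s) ω)
        (fun s => tot_nonneg hp hf m _ ω)
    rw [avgE]
    refine (avgE_mono hstep ω).trans ?_
    simp only [avgE_sum, avgE_const_mul, kernS]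
    rw [sum_pairs hp S S m (fun s t i k => f i * f k *
      if s = t then sfac (p m) s * kernS p m (st i) (st k)
      else xfac (p m) s t * kernR p m (st i) (st k))]
    refine sum_le_sum fun s hs => sum_le_sum fun t ht => ?_
    by_cases hst : s = t
    · subst hst
      simp only [if_true, ← sq]
      refine (mul_le_mul_of_nonneg_left (ih _ ω) (sfac_nonneg (hp m) s)).trans (le_of_eq ?_)
      simp only [mul_sum]
      exact sum_congr rfl fun i _ => sum_congr rfl fun k _ => by ring
    · simp only [if_neg hst]
      refine (mul_le_mul_of_nonneg_left (avgE_tot_mul_le hp hf m _ _ ω)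
        (xfac_nonneg hs ht hst)).trans (le_of_eq ?_)
      simp only [mul_sum]
      exact sum_congr rfl fun i _ => sum_congr rfl fun k _ => by ring

end Vale.Agent.P028.Full.Fractional
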