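import Vale.Agent.P028.Full.Fractional
import Vale.Agent.P028.Full.Frac

/-!
Fractional exclusion over all coordinates, for arbitrary families.

At a coordinate an item is idle, free, constrained to a class, or deletes a class of its own.  The
items which agree in state and class at all the coordinates above form one family.  A free item gives
up `delShare` of the constrained items of its family.
-/

noncomputable section

namespace Vale.Agent.P028.Full.Fractional

open Finset

/-- The state of an item at a coordinate. -/
inductive St
  | idle
  | free
  | con (c : ℕ)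
  | del (d : ℕ)
  deriving DecidableEq

/-- The state with its class reduced modulo `q`. -/
def St.red (q : ℕ) : St → St
  | .con c => .con (c % q)
  | .del d => .del (d % q)
  | s => s

/-- The states at a coordinate of size `q`. -/
def St.keys (q : ℕ) : Finset St :=
  {St.idle, St.free} ∪ ((range q).image St.con ∪ (range q).image St.del)

/-- The digits allowed by the state, ignoring the shared deletions. -/
def St.hit (q : ℕ) : St → ℕ → ℝ
  | .con c, d => if c % q = d then 1 else 0
  | .del c, d => if c % q = d then 0 else 1
  | _, _ => 1

/-- The mean of one coordinate of a state. -/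
def St.mean (q : ℕ) : St → ℝ
  | .idle => 1
  | .free => 1 - 1 / (q : ℝ)
  | .con _ => 1 / (q : ℝ)
  | .del _ => 1 - 1 / (q : ℝ)

/-- The factor of two items of different families: that of random classes at free items. -/
def rfac (q : ℕ) : St → St → ℝ
  | .con c, .con c' => (if c = c' then 1 / (q : ℝ) else 0) + 1 / (q : ℝ) ^ 2
  | .del d, .del d' => 1 - 2 / (q : ℝ) + if d = d' then 1 / (q : ℝ) else 0
  | .con _, .del _ => 1 / (q : ℝ)
  | .del _, .con _ => 1 / (q : ℝ)
  | s, t => s.mean q * t.mean q

/-- The factor of two items of one family in the same state. -/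
def sfac (q : ℕ) : St → ℝ
  | .idle => 1
  | .free => 1 - 1 / (q : ℝ) + 1 / (q : ℝ) ^ 2
  | .con _ => 1 / (q : ℝ)
  | .del _ => 1 - 1 / (q : ℝ)

/-- The factor of two items of one family in different states: a free item is killed by a
constrained one, two constrained items in different classes are charged. -/
def xfac (q : ℕ) : St → St → ℝ
  | .free, .con _ => 0
  | .con _, .free => 0
  | .con _, .con _ => 2 / (q : ℝ)
  | .del _, .del _ => 1 - 2 / (q : ℝ)
  | s, t => rfac q s t

variable {ι : Type*} (p : ℕ → ℕ) (st : ι → ℕ → St) (f : ι → ℝ)

/-- The members of `S` in the state `s` at the coordinate `m`. -/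
def fam (S : Finset ι) (m : ℕ) (s : St) : Finset ι :=
  S.filter (fun i => (st i m).red (p m) = s)

/-- The selection after the coordinates below `m`; the coordinate `m - 1` is the outermost. -/
def sel : ℕ → Finset ι → (ℕ → ℕ) → ι → ℝ
  | 0, _, _, i => f i
  | m + 1, S, ω, i =>
    sel m (fam p st S m ((st i m).red (p m))) ω i *
      match st i m with
      | .free => 1 - delShare (range (p m))
          (fun c => ∑ j ∈ fam p st S m (.con c), sel m (fam p st S m (.con c)) ω j)
          (∑ j ∈ fam p st S m .free, sel m (fam p st S m .free) ω j) (ω m)
      | s => s.hit (p m) (ω m)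

/-- The total of a family. -/
def tot (m : ℕ) (S : Finset ι) (ω : ℕ → ℕ) : ℝ := ∑ i ∈ S, sel p st f m S ω i

/-- The kernel of two families. -/
def kernR : ℕ → (ℕ → St) → (ℕ → St) → ℝ
  | 0, _, _ => 1
  | m + 1, s, t => rfac (p m) ((s m).red (p m)) ((t m).red (p m)) * kernR m s t

/-- The kernel within one family. -/
def kernS : ℕ → (ℕ → St) → (ℕ → St) → ℝ
  | 0, _, _ => 1
  | m + 1, s, t =>
    if (s m).red (p m) = (t m).red (p m) then sfac (p m) ((s m).red (p m)) * kernS m s t
    else xfac (p m) ((s m).red (p m)) ((t m).red (p m)) * kernR p m s t

end Vale.Agent.P028.Full.Fractional
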